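import Vale.Agent.P011N.Iface

/-!
The theorem on linear groups over the rational numbers from the local normal subgroup theorem,
discreteness, cocompactness and openness.
-/

open Topology Module

namespace Vale.Agent.P011N.G3

section Abstract

variable {G A : Type} [Group G] [Group A] [TopologicalSpace A] [IsTopologicalGroup A]

/-- The homomorphism to the closure of the image. -/
def toClo (φ : G →* A) : G →* φ.range.topologicalClosure :=
  φ.codRestrict _ fun g => φ.range.le_topologicalClosure ⟨g, rfl⟩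

@[simp] theorem toClo_val (φ : G →* A) (g : G) : (toClo φ g : A) = φ g := rfl

theorem toClo_inj {φ : G →* A} (hφ : Function.Injective φ) : Function.Injective (toClo φ) :=
  fun _ _ h => hφ (congrArg Subtype.val h)

theorem mem_clo (φ : G →* A) (M : Subgroup G) (h : φ.range.topologicalClosure) :
    h ∈ (M.map (toClo φ)).topologicalClosure ↔ h.1 ∈ (M.map φ).topologicalClosure := by
  have h1 : Subtype.val '' (M.map (toClo φ) : Set φ.range.topologicalClosure) =
      (M.map φ : Set A) := by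
    rw [Subgroup.coe_map, Subgroup.coe_map, Set.image_image]
    rfl
  change h ∈ closure (M.map (toClo φ) : Set φ.range.topologicalClosure) ↔
    h.1 ∈ closure (M.map φ : Set A)
  rw [← h1]
  exact Set.ext_iff.1 (Topology.IsInducing.subtypeVal.closure_eq_preimage_closure_image _) h

theorem dense_toClo (φ : G →* A) : DenseRange (toClo φ) := by
  intro h
  have h1 := (mem_clo φ ⊤ h).2 (by rw [← MonoidHom.range_eq_map]; exact h.2)
  rw [← MonoidHom.range_eq_map] at h1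
  exact h1

theorem normal_clo {H : Type} [Group H] [TopologicalSpace H] [IsTopologicalGroup H]
    (e : G →* H) (he : DenseRange e) (N : Subgroup G) (hN : N.Normal) :
    (N.map e).topologicalClosure.Normal := by
  refine ⟨fun x hx h => ?_⟩
  have hcl : IsClosed {h : H | h * x * h⁻¹ ∈ (N.map e).topologicalClosure} :=
    (N.map e).isClosed_topologicalClosure.preimage (by fun_prop)
  refine he.induction_on h hcl fun g => ?_
  have hc : Continuous fun y : H => e g * y * (e g)⁻¹ := by fun_prop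
  refine map_mem_closure (f := fun y : H => e g * y * (e g)⁻¹) (t := (N.map e : Set H)) hc hx ?_
  rintro _ ⟨n, hn, rfl⟩
  exact ⟨g * n * g⁻¹, hN.conj_mem n hn g, by simp⟩

omit [IsTopologicalGroup A] in
theorem exists_nhds {S : Subgroup A} {U : Set S} (hU : IsOpen U) (h1 : (1 : S) ∈ U) :
    ∃ U' ∈ 𝓝 (1 : A), ∀ h : S, h.1 ∈ U' → h ∈ U := by
  obtain ⟨U', hU', rfl⟩ := isOpen_induced_iff.1 hU
  exact ⟨U', hU'.mem_nhds h1, fun _ h => h⟩

theorem isOpen_of {S : Subgroup A} {M : Subgroup S} {U : Set A} (hU : U ∈ 𝓝 (1 : A))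
    (h : ∀ h : S, h.1 ∈ U → h ∈ M) : IsOpen (M : Set S) := by
  refine M.isOpen_of_mem_nhds (g := 1) ?_
  exact Filter.mem_of_superset (continuous_subtype_val.continuousAt.preimage_mem_nhds hU) h

/-- The abstract form: every element of the lattice has a power in the normal subgroup. -/
theorem abs_pow (hN : NSTloc) [LocallyCompactSpace A] [T2Space A] [SecondCountableTopology A]
    (φ : G →* A) (hφ : Function.Injective φ) (Γ N : Subgroup G) (hNn : N.Normal)
    (disc : ∀ C : Set A, IsCompact C → {g | g ∈ Γ ∧ φ g ∈ C}.Finite)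
    (coc : ∃ K : Set A, IsCompact K ∧
      ∀ h ∈ φ.range.topologicalClosure, ∃ γ ∈ Γ, (φ γ)⁻¹ * h ∈ K)
    (comm : ∀ g : G, (Γ.comap (MulAut.conj g).toMonoidHom).relIndex Γ ≠ 0)
    (opn : ∃ U ∈ 𝓝 (1 : A), ∀ h ∈ φ.range.topologicalClosure, h ∈ U →
      h ∈ (N.map φ).topologicalClosure)
    (opn2 : ∀ Λ : Subgroup G, (∃ U ∈ 𝓝 (1 : A), ∀ g, φ g ∈ U → g ∈ Λ) →
      ∃ U ∈ 𝓝 (1 : A), ∀ h ∈ φ.range.topologicalClosure, h ∈ U →
        h ∈ ((⁅Λ, Λ⁆ : Subgroup G).map φ).topologicalClosure) :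
    ∃ M : Subgroup G, M.Normal ∧ (∃ U ∈ 𝓝 (1 : A), ∀ g, φ g ∈ U → g ∈ M) ∧
      ∀ F : Set G, F.Finite → F ⊆ M → N.relIndex (Γ ⊓ Subgroup.closure F) ≠ 0 := by
  have hcl : IsClosed (φ.range.topologicalClosure : Set A) := φ.range.isClosed_topologicalClosure
  have hce : IsClosedEmbedding (Subtype.val : φ.range.topologicalClosure → A) :=
    hcl.isClosedEmbedding_subtypeVal
  have : LocallyCompactSpace φ.range.topologicalClosure := hce.locallyCompactSpace
  have : SecondCountableTopology φ.range.topologicalClosure :=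
    hce.isEmbedding.secondCountableTopology
  set e := toClo φ with he
  have hei : Function.Injective e := toClo_inj hφ
  have hlat : Lat (Γ.map e) (N.map e) := by
    refine ⟨fun C hC => ?_, ?_, ?_, ?_⟩
    · refine ((disc _ (hC.image continuous_subtype_val)).image e).subset ?_
      rintro _ ⟨hx, γ, hγ, rfl⟩
      exact ⟨γ, ⟨hγ, _, hx, rfl⟩, rfl⟩
    · obtain ⟨K, hK, h⟩ := coc
      refine ⟨Subtype.val ⁻¹' K, hce.isCompact_preimage hK, fun x => ?_⟩
      obtain ⟨γ, hγ, h1⟩ := h x.1 x.2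
      exact ⟨e γ, ⟨γ, hγ, rfl⟩, h1⟩
    · rintro _ ⟨γ, -, rfl⟩ _ ⟨n, hn, rfl⟩
      exact ⟨γ * n * γ⁻¹, hNn.conj_mem n hn γ, by simp⟩
    · rintro _ ⟨n, -, rfl⟩
      rw [← Subgroup.relIndex_comap]
      have h1 : ((Γ.map e).comap (MulAut.conj (e n)).toMonoidHom).comap e =
          Γ.comap (MulAut.conj n).toMonoidHom := by
        ext x
        have h2 : (MulAut.conj (e n)).toMonoidHom (e x) =
            e ((MulAut.conj n).toMonoidHom x) := by simp
        rw [Subgroup.mem_comap, Subgroup.mem_comap, Subgroup.mem_comap, h2,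
          Subgroup.mem_map_iff_mem hei]
      rw [h1]
      exact comm n
  have hop : IsOpen ((N.map e).topologicalClosure : Set φ.range.topologicalClosure) := by
    obtain ⟨U, hU, h⟩ := opn
    exact isOpen_of hU fun x hx => (mem_clo φ N x).2 (h x.1 x.2 hx)
  have hop2 : ∀ U : Subgroup φ.range.topologicalClosure,
      IsOpen (U : Set φ.range.topologicalClosure) →
      IsOpen ((⁅U, U⁆ : Subgroup φ.range.topologicalClosure).topologicalClosure :
        Set φ.range.topologicalClosure) := by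
    intro U hU
    obtain ⟨U', hU', h1⟩ := exists_nhds hU U.one_mem
    obtain ⟨W, hW, h2⟩ := opn2 (U.comap e) ⟨U', hU', fun g hg => h1 (e g) hg⟩
    refine isOpen_of hW fun x hx => ?_
    have h3 := (mem_clo φ _ x).2 (h2 x.1 x.2 hx)
    refine Subgroup.topologicalClosure_mono ?_ h3
    rw [Subgroup.map_commutator]
    exact Subgroup.commutator_mono (Subgroup.map_comap_le _ _) (Subgroup.map_comap_le _ _)
  obtain ⟨H₁, h1, h2, h3⟩ :=
    hN _ (Γ.map e) (N.map e) hlat hop (normal_clo e (dense_toClo φ) N hNn) hop2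
  refine ⟨H₁.comap e, h2.comap e, ?_, fun F hF hFM => ?_⟩
  · obtain ⟨U', hU', h4⟩ := exists_nhds h1 H₁.one_mem
    exact ⟨U', hU', fun g hg => h4 (e g) hg⟩
  · have h4 := h3 (e '' F) (hF.image e).isCompact (by
      rintro _ ⟨g, hg, rfl⟩
      exact hFM hg)
    rwa [← MonoidHom.map_closure, ← Subgroup.map_inf _ _ _ hei,
      Subgroup.relIndex_map_map_of_injective _ _ hei] at h4

end Abstract

open scoped commutatorElement in
theorem comm_conj {G : Type} [Group G] (Λ : Subgroup G) {g n : G} (hg : g ∈ Λ)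
    (hn : n ∈ (⁅Λ, Λ⁆ : Subgroup G)) : g * n * g⁻¹ ∈ (⁅Λ, Λ⁆ : Subgroup G) := by
  have hle : (⁅Λ, Λ⁆ : Subgroup G) ≤ Λ := Subgroup.commutator_le.2 fun a ha b hb => by
    rw [commutatorElement_def]
    exact Λ.mul_mem (Λ.mul_mem (Λ.mul_mem ha hb) (Λ.inv_mem ha)) (Λ.inv_mem hb)
  have h1 : ⁅g, n⁆ ∈ (⁅Λ, Λ⁆ : Subgroup G) := Subgroup.commutator_mem_commutator hg (hle hn)
  have h2 : g * n * g⁻¹ = ⁅g, n⁆ * n := by rw [commutatorElement_def]; group
  rw [h2]
  exact Subgroup.mul_mem _ h1 hn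

/-- The abstract form for a subgroup of a group. -/
theorem abs_sub (hN : NSTloc) {E A : Type} [Group E] [Group A] [TopologicalSpace A]
    [IsTopologicalGroup A] [LocallyCompactSpace A] [T2Space A] [SecondCountableTopology A]
    (ψ : E →* A) (hψ : Function.Injective ψ) (G Γ : Subgroup E) (N : Subgroup G) (hNn : N.Normal)
    (hnc : ¬ N ≤ Subgroup.center G)
    (disc : ∀ C : Set A, IsCompact C → {g | g ∈ Γ ∧ ψ g ∈ C}.Finite)
    (coc : ∃ K : Set A, IsCompact K ∧
      ∀ h ∈ (G.map ψ).topologicalClosure, ∃ γ ∈ G ⊓ Γ, (ψ γ)⁻¹ * h ∈ K)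
    (comm : ∀ g : E, (Γ.comap (MulAut.conj g).toMonoidHom).relIndex Γ ≠ 0)
    (opn : ∀ Λ₀ : Subgroup E, Λ₀ ≤ G → (∃ U ∈ 𝓝 (1 : A), ∀ g ∈ G, ψ g ∈ U → g ∈ Λ₀) →
      (∀ N : Subgroup E, N ≤ G → (∀ g ∈ Λ₀, ∀ n ∈ N, g * n * g⁻¹ ∈ N) →
        (∃ n ∈ N, ∃ g ∈ G, g * n ≠ n * g) →
        ∃ U ∈ 𝓝 (1 : A), ∀ h ∈ (G.map ψ).topologicalClosure, h ∈ U →
          h ∈ (N.map ψ).topologicalClosure) ∧
      ∃ n ∈ ⁅Λ₀, Λ₀⁆, ∃ g ∈ G, g * n ≠ n * g) :
    ∃ M : Subgroup G, M.Normal ∧ (∃ U ∈ 𝓝 (1 : A), ∀ g : G, ψ g ∈ U → g ∈ M) ∧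
      ∀ F : Set G, F.Finite → F ⊆ M →
        N.relIndex (Γ.comap G.subtype ⊓ Subgroup.closure F) ≠ 0 := by
  have hnc' : ∃ n ∈ N.map G.subtype, ∃ g ∈ G, g * n ≠ n * g := by
    by_contra hcon
    push Not at hcon
    exact hnc fun n hn => Subgroup.mem_center_iff.2 fun g =>
      Subtype.ext (hcon n.1 ⟨n, hn, rfl⟩ g.1 g.2)
  have hmap : ∀ M : Subgroup G, M.map (ψ.comp G.subtype) = (M.map G.subtype).map ψ := fun M => by
    rw [Subgroup.map_map]
  have hrange : (ψ.comp G.subtype).range = G.map ψ := by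
    rw [MonoidHom.range_eq_map, hmap, ← MonoidHom.range_eq_map, Subgroup.range_subtype]
  refine abs_pow hN (ψ.comp G.subtype) (hψ.comp Subtype.val_injective) (Γ.comap G.subtype) N hNn
    (fun C hC => ((disc C hC).preimage Subtype.val_injective.injOn).subset fun x hx => hx)
    ?_ (fun x => ?_) ?_ ?_
  · obtain ⟨K, hK, h⟩ := coc
    refine ⟨K, hK, fun x hx => ?_⟩
    obtain ⟨γ, hγ, h1⟩ := h x (hrange ▸ hx)
    exact ⟨⟨γ, hγ.1⟩, hγ.2, h1⟩
  · have h1 : (Γ.comap G.subtype).comap (MulAut.conj x).toMonoidHom =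
        (Γ.comap (MulAut.conj x.1).toMonoidHom).comap G.subtype := by
      ext y
      simp [Subgroup.mem_subgroupOf]
    rw [h1]
    exact Subgroup.relIndex_comap_ne_zero G.subtype (comm x.1)
  · obtain ⟨U, hU, h⟩ := (opn G le_rfl ⟨Set.univ, Filter.univ_mem, fun g hg _ => hg⟩).1
      (N.map G.subtype) (Subgroup.map_subtype_le _) (by
        rintro g hg _ ⟨n, hn, rfl⟩
        exact ⟨⟨g, hg⟩ * n * ⟨g, hg⟩⁻¹, hNn.conj_mem n hn _, rfl⟩) hnc'
    refine ⟨U, hU, fun x hx h1 => ?_⟩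
    rw [hmap]
    exact h x (hrange ▸ hx) h1
  · rintro Λ ⟨U, hU, hUΛ⟩
    obtain ⟨h1, h2⟩ := opn (Λ.map G.subtype) (Subgroup.map_subtype_le _)
      ⟨U, hU, fun g hg h => ⟨⟨g, hg⟩, hUΛ ⟨g, hg⟩ h, rfl⟩⟩
    obtain ⟨W, hW, h⟩ := h1 ⁅Λ.map G.subtype, Λ.map G.subtype⁆
      (by rw [← Subgroup.map_commutator]; exact Subgroup.map_subtype_le _)
      (fun g hg n hn => comm_conj _ hg hn) h2
    refine ⟨W, hW, fun x hx h3 => ?_⟩
    rw [hmap, Subgroup.map_commutator]
    exact h x (hrange ▸ hx) h3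

/-- The theorem on linear groups. -/
theorem lgThm (hN : NSTloc) (hD : DiscStmt) (hC : CocStmt) (hO : OpnStmt) (hB : BigOpenStmt) :
    LGThm := by
  intro V _ _ _ T hT hBT N hNn
  by_cases hc : N ≤ Subgroup.center T.grp
  · exact Or.inl hc
  right
  refine hBT N (big_of_pow hNn fun g => ?_)
  obtain ⟨P, -, hg⟩ := (hD V _ (Module.finBasis ℚ V) ∅).2.2.2.2 g.1
  generalize Module.finBasis ℚ V = b at hg
  obtain ⟨hinj, -, hdisc, hcomm, -⟩ := hD V _ b P
  obtain ⟨M, hM, ⟨U, hU, hUM⟩, hF⟩ := abs_sub hN (emb b P) hinj T.grp (IntG b P) N hNn hc hdisc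
    (hC V _ b P T hT.det hT.aniso) hcomm (hO V _ b P T hT)
  have hMtop : M = ⊤ := hBT M ⟨hM, fun j => by
    obtain ⟨a, ha, h⟩ := hB _ P ((mat b).comp (T.grp.subtype.comp j)) U hU
    exact ⟨a, ha, hUM _ h⟩⟩
  have h1 := hF {g} (Set.finite_singleton g) (by simp [hMtop])
  obtain ⟨m, hm, -, h2⟩ := Subgroup.exists_pow_mem_of_relIndex_ne_zero h1
    (a := g) ⟨hg, Subgroup.subset_closure rfl⟩
  exact ⟨m, hm, h2.1⟩

end Vale.Agent.P011N.G3
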