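import Vale.Agent.P011N.G3.Main
import Vale.Agent.P011N.A1b.Key

/-!
The normal subgroup theorem for the group of a good family of forms.
-/

open Topology Module

namespace Vale.Agent.P011N.G3

theorem keyStmt (hN : NSTloc) (hD : DiscStmt) (hC : CocStmt) (hO : OpnStmt) : A1b.KeyStmt := by
  intro V _ _ d b P T hT N hNle hNn hnc
  obtain ⟨hinj, -, hdisc, hcomm, -⟩ := hD V d b P
  have hn : (N.subgroupOf T.grp).Normal := ⟨fun n hn g => hNn g.1 g.2 n.1 hn⟩
  have hc : ¬ N.subgroupOf T.grp ≤ Subgroup.center T.grp := fun h => by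
    obtain ⟨n, h1, g, h2, h3⟩ := hnc
    exact h3 (congrArg Subtype.val
      (Subgroup.mem_center_iff.1 (h (x := ⟨n, hNle h1⟩) h1) ⟨g, h2⟩))
  obtain ⟨M, hM, ⟨U, hU, hUM⟩, hF⟩ := abs_sub hN (emb b P) hinj T.grp (IntG b P)
    (N.subgroupOf T.grp) hn hc hdisc (hC V d b P T hT.det hT.aniso) hcomm (hO V d b P T hT)
  refine ⟨M.map T.grp.subtype, Subgroup.map_subtype_le _, ?_,
    ⟨U, hU, fun g hg h => ⟨⟨g, hg⟩, hUM ⟨g, hg⟩ h, rfl⟩⟩, fun C hC1 hC2 => ?_⟩
  · rintro g hg _ ⟨n, hn, rfl⟩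
    exact ⟨⟨g, hg⟩ * n * ⟨g, hg⟩⁻¹, hM.conj_mem n hn _, rfl⟩
  · have h1 := hF (T.grp.subtype ⁻¹' C) (hC1.preimage Subtype.val_injective.injOn) fun x hx =>
      (Subgroup.mem_map_iff_mem T.grp.subtype_injective).1 (hC2 hx)
    have h2 : T.grp.subtype '' (T.grp.subtype ⁻¹' C) = C :=
      Set.image_preimage_eq_of_subset fun x hx => ⟨⟨x, Subgroup.map_subtype_le _ (hC2 hx)⟩, rfl⟩
    rw [Subgroup.subgroupOf, Subgroup.relIndex_comap,
      Subgroup.map_inf _ _ _ T.grp.subtype_injective, MonoidHom.map_closure, h2,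
      Subgroup.map_comap_eq, Subgroup.range_subtype] at h1
    refine fun h => h1 (Subgroup.relIndex_eq_zero_of_le_left le_rfl ?_)
    have h3 : Subgroup.closure C ≤ T.grp :=
      (Subgroup.closure_le _).2 fun x hx => Subgroup.map_subtype_le _ (hC2 hx)
    rwa [inf_assoc, inf_comm, inf_assoc, inf_eq_left.2 h3]

end Vale.Agent.P011N.G3
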